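import Vale.Agent.P290.MathlibUsed

open scoped Manifold ContDiff Topology
open Set

namespace Vale.Agent.P290

/-- The complex vector space of dimension two. -/
abbrev C2 : Type := ℂ × ℂ

/-- A nowhere vanishing holomorphic 2-form on a complex surface `X`: in the chart `e` of the atlas
it is `coef e y * dy₁ ∧ dy₂`. -/
structure VolForm (X : Type) [TopologicalSpace X] [ChartedSpace C2 X] where
  coef : OpenPartialHomeomorph X C2 → C2 → ℂ
  holo : ∀ e ∈ atlas C2 X, DifferentiableOn ℂ (coef e) e.target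
  ne_zero : ∀ e ∈ atlas C2 X, ∀ y ∈ e.target, coef e y ≠ 0
  compat : ∀ e ∈ atlas C2 X, ∀ e' ∈ atlas C2 X, ∀ y ∈ e.target, e.symm y ∈ e'.source →
    coef e y = coef e' (e' (e.symm y)) * (fderiv ℂ (fun z => e' (e.symm z)) y).det

/-- Complex K3 surfaces. -/
structure IsK3 (X : Type) [TopologicalSpace X] [ChartedSpace C2 X] : Prop where
  manifold : IsManifold 𝓘(ℂ, C2) ω X
  t2 : T2Space X
  compact : CompactSpace X
  simplyConnected : SimplyConnectedSpace X
  canonical : Nonempty (VolForm X)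

/-- The convex approximation property, as in the problem. -/
def IsOka (X : Type) [TopologicalSpace X] [ChartedSpace C2 X] : Prop :=
  ∀ (m : ℕ), 1 ≤ m → ∀ K U : Set (Fin m → ℂ), IsCompact K → Convex ℝ K → K.Nonempty →
    IsOpen U → K ⊆ U →
    ∀ f : (Fin m → ℂ) → X, MDifferentiableOn 𝓘(ℂ, Fin m → ℂ) 𝓘(ℂ, C2) f U →
    ∀ d : X → X → ℝ, Continuous (fun p : X × X => d p.1 p.2) → (∀ x, d x x = 0) →
    ∀ ε > 0, ∃ F : (Fin m → ℂ) → X, MDifferentiable 𝓘(ℂ, Fin m → ℂ) 𝓘(ℂ, C2) F ∧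
      ∀ z ∈ K, d (F z) (f z) < ε

end Vale.Agent.P290
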