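import Mathlib.Algebra.Lie.OfAssociative
import Mathlib.Algebra.Module.Torsion.Prod
import Mathlib.Algebra.Order.Ring.Star
import Mathlib.Algebra.Order.Star.Real
import Mathlib.Analysis.CStarAlgebra.GelfandDuality
import Mathlib.Analysis.Calculus.ContDiff.FiniteDimension
import Mathlib.Analysis.Calculus.ImplicitContDiff
import Mathlib.Analysis.Calculus.LineDeriv.IntegrationByParts
import Mathlib.Analysis.Calculus.ParametricIntervalIntegral
import Mathlib.Analysis.Complex.BranchLogRoot
import Mathlib.Analysis.Complex.HasPrimitives
import Mathlib.Analysis.Complex.Schwarz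
import Mathlib.Analysis.Complex.TaylorSeries
import Mathlib.Analysis.Convex.Join
import Mathlib.Analysis.Meromorphic.RCLike
import Mathlib.Analysis.Normed.Affine.Convex
import Mathlib.Analysis.ODE.ExistUnique
import Mathlib.Analysis.Real.Pi.Bounds
import Mathlib.Analysis.SpecialFunctions.Elliptic.Weierstrass
import Mathlib.Analysis.SpecialFunctions.Gaussian.FourierTransform
import Mathlib.Analysis.SpecialFunctions.Trigonometric.DerivHyp
import Mathlib.Analysis.SpecialFunctions.Trigonometric.Series
import Mathlib.Computability.Reduce
import Mathlib.Data.Finset.Functor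
import Mathlib.Data.Int.Star
import Mathlib.Data.Nat.Dist
import Mathlib.Data.Pi.Interval
import Mathlib.Geometry.Manifold.PartitionOfUnity
import Mathlib.Geometry.Manifold.Sheaf.Basic
import Mathlib.Geometry.Manifold.VectorField.Pullback
import Mathlib.MeasureTheory.Measure.Lebesgue.VolumeOfBalls
import Mathlib.Order.CompletePartialOrder
import Mathlib.RingTheory.Etale.Weakly
import Mathlib.RingTheory.Finiteness.ModuleFinitePresentation
import Mathlib.RingTheory.Flat.TorsionFree
import Mathlib.RingTheory.PicardGroup
import Mathlib.RingTheory.SimpleRing.Principal
import Mathlib.RingTheory.TotallySplit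
import Mathlib.Tactic
import Mathlib.Topology.Compactness.CompactlyGeneratedSpace
import Mathlib.Topology.ContinuousMap.SecondCountableSpace
import Mathlib.Topology.Separation.Connected
import Mathlib.Topology.UniformSpace.Uniformizable

/-! The part of Mathlib that the development of this folder uses. -/
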